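import Mathlib

/-!
Quadratic forms on `ℝ⁴` in explicit coordinates.
-/

set_option autoImplicit false

namespace Crest.Agent.R50

/-- vectors of `ℝ⁴` -/
abbrev V4 := Fin 4 → ℝ

/-- coefficient vectors of quadratic forms -/
abbrev V10 := Fin 10 → ℝ

/-- inner product -/
def ip (x y : V4) : ℝ := x 0 * y 0 + x 1 * y 1 + x 2 * y 2 + x 3 * y 3

/-- quadratic form -/
def qf (a : V10) (x : V4) : ℝ :=
  a 0 * (x 0 * x 0) + a 1 * (x 1 * x 1) + a 2 * (x 2 * x 2) + a 3 * (x 3 * x 3) +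
    a 4 * (x 0 * x 1) + a 5 * (x 0 * x 2) + a 6 * (x 0 * x 3) + a 7 * (x 1 * x 2) +
    a 8 * (x 1 * x 3) + a 9 * (x 2 * x 3)

/-- normalisation -/
noncomputable def nrm (x : V4) : V4 := (√(ip x x))⁻¹ • x

lemma ip_comm (x y : V4) : ip x y = ip y x := by simp only [ip]; ring

lemma ip_self_nonneg (x : V4) : 0 ≤ ip x x := by
  simp only [ip]; nlinarith [mul_self_nonneg (x 0), mul_self_nonneg (x 1), mul_self_nonneg (x 2),
    mul_self_nonneg (x 3)]

lemma ip_smul_left (t : ℝ) (x y : V4) : ip (t • x) y = t * ip x y := by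
  simp only [ip, Pi.smul_apply, smul_eq_mul]; ring

lemma ip_neg_right (x y : V4) : ip x (-y) = -ip x y := by
  simp only [ip, Pi.neg_apply]; ring

lemma ip_smul_smul (t : ℝ) (x : V4) : ip (t • x) (t • x) = t ^ 2 * ip x x := by
  simp only [ip, Pi.smul_apply, smul_eq_mul]; ring

lemma qf_smul (a : V10) (t : ℝ) (x : V4) : qf a (t • x) = t ^ 2 * qf a x := by
  simp only [qf, Pi.smul_apply, smul_eq_mul]; ring

lemma qf_neg (a : V10) (x : V4) : qf (-a) x = -qf a x := by
  simp only [qf, Pi.neg_apply]; ring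

lemma qf_sub (a b : V10) (x : V4) : qf (a - b) x = qf a x - qf b x := by
  simp only [qf, Pi.sub_apply]; ring

lemma inv_sqrt_sq {s : ℝ} (hs : 0 < s) : (√s)⁻¹ ^ 2 * s = 1 := by
  rw [inv_pow, Real.sq_sqrt hs.le, inv_mul_cancel₀ hs.ne']

lemma ip_nrm {x : V4} (hx : 0 < ip x x) : ip (nrm x) (nrm x) = 1 := by
  rw [nrm, ip_smul_smul, inv_sqrt_sq hx]

lemma nrm_neg (x : V4) : nrm (-x) = -nrm x := by
  have : ip (-x) (-x) = ip x x := by simp only [ip, Pi.neg_apply]; ring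
  rw [nrm, nrm, this, smul_neg]

lemma abs_coord_le {x : V4} (hx : ip x x = 1) (i : Fin 4) : |x i| ≤ 1 := by
  rw [← sq_le_one_iff_abs_le_one]
  simp only [ip] at hx
  fin_cases i <;> simp only [Fin.zero_eta, Fin.mk_one, Fin.reduceFinMk] <;>
    nlinarith [mul_self_nonneg (x 0), mul_self_nonneg (x 1), mul_self_nonneg (x 2),
      mul_self_nonneg (x 3)]

lemma continuous_ip_self : Continuous fun x : V4 => ip x x := by
  unfold ip; fun_prop

lemma exists_top (a : V10) : ∃ x : V4, ip x x = 1 ∧ ∀ y : V4, ip y y = 1 → qf a y ≤ qf a x := by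
  have hK : IsCompact {x : V4 | ip x x = 1} := by
    refine (isCompact_closedBall (0 : V4) 1).of_isClosed_subset
      (isClosed_eq continuous_ip_self continuous_const) fun x hx => ?_
    rw [mem_closedBall_zero_iff, pi_norm_le_iff_of_nonneg zero_le_one]
    exact fun i => abs_coord_le hx i
  have hne : {x : V4 | ip x x = 1}.Nonempty := ⟨Pi.single 0 1, by simp [ip]⟩
  have hc : Continuous (qf a) := by unfold qf; fun_prop
  obtain ⟨x, hx, hmax⟩ := hK.exists_isMaxOn hne hc.continuousOn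
  exact ⟨x, hx, fun y hy => hmax hy⟩

/-- a unit maximiser of the form -/
noncomputable def top (a : V10) : V4 := (exists_top a).choose

/-- the maximum of the form on the unit sphere -/
noncomputable def mx (a : V10) : ℝ := qf a (top a)

lemma top_unit (a : V10) : ip (top a) (top a) = 1 := (exists_top a).choose_spec.1

lemma le_mx (a : V10) {y : V4} (hy : ip y y = 1) : qf a y ≤ mx a :=
  (exists_top a).choose_spec.2 y hy

lemma le_mx_mul (a : V10) (y : V4) : qf a y ≤ mx a * ip y y := by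
  rcases (ip_self_nonneg y).eq_or_lt with h | h
  · have h0 : y = 0 := by
      simp only [ip] at h
      funext i
      fin_cases i <;> simp only [Fin.zero_eta, Fin.mk_one, Fin.reduceFinMk, Pi.zero_apply] <;>
        nlinarith [mul_self_nonneg (y 0), mul_self_nonneg (y 1), mul_self_nonneg (y 2),
          mul_self_nonneg (y 3)]
    subst h0
    simp [qf, ip]
  · have h1 := le_mx a (ip_nrm h)
    rw [nrm, qf_smul] at h1
    have h2 := inv_sqrt_sq h
    calc qf a y = ((√(ip y y))⁻¹ ^ 2 * qf a y) * ip y y := by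
          rw [mul_right_comm, h2, one_mul]
      _ ≤ mx a * ip y y := mul_le_mul_of_nonneg_right h1 h.le

lemma sum_abs_ten (c : V10) : ∑ i, |c i| =
    |c 0| + |c 1| + |c 2| + |c 3| + |c 4| + |c 5| + |c 6| + |c 7| + |c 8| + |c 9| := by
  simp only [Fin.sum_univ_succ, Fin.sum_univ_zero]
  simp only [Fin.succ_zero_eq_one, Fin.succ_one_eq_two, Fin.reduceSucc]
  ring

lemma abs_qf_le (c : V10) {y : V4} (hy : ip y y = 1) : |qf c y| ≤ ∑ i, |c i| := by
  have h : ∀ (k : Fin 10) (i j : Fin 4), |c k * (y i * y j)| ≤ |c k| := by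
    intro k i j
    rw [abs_mul, abs_mul]
    have := mul_le_one₀ (abs_coord_le hy i) (abs_nonneg _) (abs_coord_le hy j)
    exact mul_le_of_le_one_right (abs_nonneg _) this
  have h0 := abs_le.1 (h 0 0 0)
  have h1 := abs_le.1 (h 1 1 1)
  have h2 := abs_le.1 (h 2 2 2)
  have h3 := abs_le.1 (h 3 3 3)
  have h4 := abs_le.1 (h 4 0 1)
  have h5 := abs_le.1 (h 5 0 2)
  have h6 := abs_le.1 (h 6 0 3)
  have h7 := abs_le.1 (h 7 1 2)
  have h8 := abs_le.1 (h 8 1 3)
  have h9 := abs_le.1 (h 9 2 3)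
  rw [sum_abs_ten, abs_le, qf]
  constructor <;> linarith [h0.1, h0.2, h1.1, h1.2, h2.1, h2.2, h3.1, h3.2, h4.1, h4.2, h5.1, h5.2,
    h6.1, h6.2, h7.1, h7.2, h8.1, h8.2, h9.1, h9.2]

lemma abs_qf_sub_le {a b : V10} {δ : ℝ} (h : dist a b ≤ δ) {y : V4} (hy : ip y y = 1) :
    |qf a y - qf b y| ≤ 10 * δ := by
  rw [← qf_sub]
  refine (abs_qf_le _ hy).trans ?_
  have : ∀ i, |(a - b) i| ≤ δ := fun i => by
    rw [Pi.sub_apply, ← Real.dist_eq]; exact (dist_le_pi_dist a b i).trans h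
  calc ∑ i, |(a - b) i| ≤ ∑ _i : Fin 10, δ := Finset.sum_le_sum fun i _ => this i
    _ = 10 * δ := by simp

lemma mx_le_mx_add {a b : V10} {δ : ℝ} (h : dist a b ≤ δ) : mx a ≤ mx b + 10 * δ := by
  have h1 := (abs_le.1 (abs_qf_sub_le h (top_unit a))).2
  have h2 := le_mx b (top_unit a)
  rw [mx]
  linarith

/-- forms on the `ℓ¹`-sphere whose maximum dominates -/
def Good (b : V10) : Prop := ∑ i, |b i| = 1 ∧ mx (-b) ≤ mx b

lemma mx_le_one {b : V10} (hb : ∑ i, |b i| = 1) : mx b ≤ 1 :=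
  hb ▸ (le_abs_self _).trans (abs_qf_le b (top_unit b))

lemma Good.le_mx {b : V10} (hb : Good b) : 1 / 28 ≤ mx b := by
  have h : ∀ y : V4, |qf b y| ≤ mx b * ip y y := by
    intro y
    have h1 := le_mx_mul b y
    have h2 := le_mx_mul (-b) y
    have h3 := mul_le_mul_of_nonneg_right hb.2 (ip_self_nonneg y)
    rw [qf_neg] at h2
    exact abs_le.2 ⟨by linarith, h1⟩
  have h0 := h ![1, 0, 0, 0]
  have h1 := h ![0, 1, 0, 0]
  have h2 := h ![0, 0, 1, 0]
  have h3 := h ![0, 0, 0, 1]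
  have h4 := h ![1, 1, 0, 0]
  have h5 := h ![1, 0, 1, 0]
  have h6 := h ![1, 0, 0, 1]
  have h7 := h ![0, 1, 1, 0]
  have h8 := h ![0, 1, 0, 1]
  have h9 := h ![0, 0, 1, 1]
  simp only [qf, ip, Matrix.cons_val_zero, Matrix.cons_val_one, Matrix.cons_val, mul_one, mul_zero,
    add_zero, zero_add] at h0 h1 h2 h3 h4 h5 h6 h7 h8 h9
  have hs := hb.1
  rw [sum_abs_ten] at hs
  have a0 := abs_le.1 h0
  have a1 := abs_le.1 h1
  have a2 := abs_le.1 h2
  have a3 := abs_le.1 h3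
  have a4 := abs_le.1 h4
  have a5 := abs_le.1 h5
  have a6 := abs_le.1 h6
  have a7 := abs_le.1 h7
  have a8 := abs_le.1 h8
  have a9 := abs_le.1 h9
  have b4 : |b 4| ≤ 4 * mx b := abs_le.2 ⟨by linarith [a0.2, a1.2, a4.1], by linarith [a0.1, a1.1, a4.2]⟩
  have b5 : |b 5| ≤ 4 * mx b := abs_le.2 ⟨by linarith [a0.2, a2.2, a5.1], by linarith [a0.1, a2.1, a5.2]⟩
  have b6 : |b 6| ≤ 4 * mx b := abs_le.2 ⟨by linarith [a0.2, a3.2, a6.1], by linarith [a0.1, a3.1, a6.2]⟩
  have b7 : |b 7| ≤ 4 * mx b := abs_le.2 ⟨by linarith [a1.2, a2.2, a7.1], by linarith [a1.1, a2.1, a7.2]⟩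
  have b8 : |b 8| ≤ 4 * mx b := abs_le.2 ⟨by linarith [a1.2, a3.2, a8.1], by linarith [a1.1, a3.1, a8.2]⟩
  have b9 : |b 9| ≤ 4 * mx b := abs_le.2 ⟨by linarith [a2.2, a3.2, a9.1], by linarith [a2.1, a3.1, a9.2]⟩
  linarith

lemma ortho_aux {a : V10} {M m θ : ℝ} (hM : ∀ y, qf a y ≤ M * ip y y)
    (hm : ∀ y, m * ip y y ≤ qf a y) {u z : V4} (hu : ip u u = 1) (hz : ip z z = 1)
    (h1 : M - qf a u ≤ θ) (h2 : qf a z - m ≤ θ) (t : ℝ) :
    t * (m - M) * ip u z ≤ θ + t ^ 2 * (M - m) := by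
  have e1 := hM (u + t • z)
  have e2 := hm (z + t • u)
  have e3 := hM u
  have e4 := hm z
  have i1 : ip (u + t • z) (u + t • z) = ip u u + 2 * t * ip u z + t ^ 2 * ip z z := by
    simp only [ip, Pi.add_apply, Pi.smul_apply, smul_eq_mul]; ring
  have i2 : ip (z + t • u) (z + t • u) = ip z z + 2 * t * ip u z + t ^ 2 * ip u u := by
    simp only [ip, Pi.add_apply, Pi.smul_apply, smul_eq_mul]; ring
  have q1 : qf a (u + t • z) - qf a (z + t • u) = (1 - t ^ 2) * (qf a u - qf a z) := by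
    simp only [qf, Pi.add_apply, Pi.smul_apply, smul_eq_mul]; ring
  rw [i1, hu, hz] at e1
  rw [i2, hu, hz] at e2
  rw [hu] at e3
  rw [hz] at e4
  have ht : 0 ≤ t ^ 2 := sq_nonneg t
  have f1 : t ^ 2 * (qf a u - qf a z) ≤ t ^ 2 * (M - m) :=
    mul_le_mul_of_nonneg_left (by linarith) ht
  nlinarith

lemma ortho_pair {η δ : ℝ} (hη : 0 < η) (hη1 : η ≤ 1) (hδ : δ ≤ η ^ 2 / 300000) {b b' : V10}
    (hb : Good b) (hb' : Good b') (hd : dist b (-b') ≤ δ) {u : V4} (hu : ip u u = 1)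
    (h1 : mx b - qf b u ≤ 40 * δ) : |ip u (top b')| < η := by
  have hδ0 : 0 ≤ δ := dist_nonneg.trans hd
  have hd' : dist b' (-b) ≤ δ := by
    rw [← dist_neg_neg, neg_neg, dist_comm]; exact hd
  have hd'' : dist (-b) b' ≤ δ := by rw [dist_comm]; exact hd'
  have hm : ∀ y, (-mx (-b)) * ip y y ≤ qf b y := by
    intro y
    have := le_mx_mul (-b) y
    rw [qf_neg] at this
    linarith
  have h2 : qf b (top b') - (-mx (-b)) ≤ 40 * δ := by
    have e1 := (abs_le.1 (abs_qf_sub_le hd (top_unit b'))).2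
    rw [qf_neg] at e1
    have e2 := mx_le_mx_add hd''
    rw [mx.eq_1 b'] at e2
    linarith
  have hlow : 1 / 28 ≤ mx b - (-mx (-b)) := by
    have e1 := mx_le_mx_add hd'
    have e2 := hb.le_mx
    have e3 := hb'.le_mx
    have e4 : η ^ 2 ≤ 1 := by nlinarith
    linarith
  have hup : mx b - (-mx (-b)) ≤ 2 := by
    have := mx_le_one hb.1
    linarith [hb.2]
  have k1 := ortho_aux (le_mx_mul b) hm hu (top_unit b') h1 h2 (η / 112)
  have k2 := ortho_aux (le_mx_mul b) hm hu (top_unit b') h1 h2 (-(η / 112))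
  set D := mx b - (-mx (-b)) with hD
  have eD : -mx (-b) - mx b = -D := by rw [hD]; ring
  rw [eD] at k1 k2
  set s := ip u (top b')
  have k3 : η / 112 * D * |s| ≤ 40 * δ + (η / 112) ^ 2 * D := by
    rcases abs_cases s with h | h <;> rw [h.1] <;> nlinarith
  by_contra hge
  push Not at hge
  have k4 : η / 112 * D * η ≤ η / 112 * D * |s| :=
    mul_le_mul_of_nonneg_left hge (by positivity)
  have k5 : η ^ 2 * D * (111 / 12544) ≤ 40 * δ := by nlinarith
  have k6 : η ^ 2 * (1 / 28) ≤ η ^ 2 * D := mul_le_mul_of_nonneg_left hlow (sq_nonneg η)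
  have k7 : 0 < η ^ 2 := by positivity
  nlinarith

lemma same_sign {b : V10} {θ : ℝ} {y y' x : V4} (hy : ip y y = 1) (hy' : ip y' y' = 1)
    (hyy : 0 ≤ ip y y') (h1 : mx b - qf b y ≤ θ) (h2 : mx b - qf b y' ≤ θ)
    (H : ∀ u, ip u u = 1 → mx b - qf b u ≤ 2 * θ → ip u x ≠ 0) : 0 < ip y x * ip y' x := by
  have hθ : 0 ≤ θ := by linarith [le_mx b hy]
  have hα := H y hy (by linarith)
  have hβ := H y' hy' (by linarith)
  by_contra hle
  have hlt : ip y x * ip y' x < 0 := lt_of_le_of_ne (not_lt.1 hle) (mul_ne_zero hα hβ)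
  set α := ip y x with hαd
  set β := ip y' x with hβd
  have hne : α - β ≠ 0 := by
    intro h
    have : α = β := by linarith
    rw [this] at hlt
    nlinarith [mul_self_nonneg β]
  set t := α / (α - β) with ht
  have htm : t * (α - β) = α := div_mul_cancel₀ _ hne
  have hsq : 0 < (α - β) ^ 2 := by positivity
  have ht0 : 0 ≤ t := by
    have : t = α * (α - β) / (α - β) ^ 2 := by rw [ht]; field_simp
    rw [this]
    exact div_nonneg (by nlinarith [mul_self_nonneg α]) hsq.le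
  have ht1 : t ≤ 1 := by
    have : 1 - t = -β * (α - β) / (α - β) ^ 2 := by rw [ht]; field_simp; ring
    have h' : 0 ≤ -β * (α - β) / (α - β) ^ 2 :=
      div_nonneg (by nlinarith [mul_self_nonneg β]) hsq.le
    linarith
  let w : V4 := (1 - t) • y + t • y'
  have hwx : ip w x = 0 := by
    have : ip w x = (1 - t) * ip y x + t * ip y' x := by
      simp only [w, ip, Pi.add_apply, Pi.smul_apply, smul_eq_mul]; ring
    rw [this, ← hαd, ← hβd]
    linarith
  have hww : 1 / 2 ≤ ip w w := by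
    have : ip w w = (1 - t) ^ 2 * ip y y + 2 * t * (1 - t) * ip y y' + t ^ 2 * ip y' y' := by
      simp only [w, ip, Pi.add_apply, Pi.smul_apply, smul_eq_mul]; ring
    rw [this, hy, hy']
    have : 0 ≤ 2 * t * (1 - t) * ip y y' :=
      mul_nonneg (mul_nonneg (by linarith) (by linarith)) hyy
    nlinarith [sq_nonneg (2 * t - 1)]
  have hQ : mx b * ip w w - qf b w ≤ θ := by
    have e : mx b * ip w w - qf b w = (1 - t) * (mx b * ip y y - qf b y) +
        t * (mx b * ip y' y' - qf b y') -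
        t * (1 - t) * (mx b * ip (y - y') (y - y') - qf b (y - y')) := by
      simp only [w, ip, qf, Pi.add_apply, Pi.sub_apply, Pi.smul_apply, smul_eq_mul]; ring
    have e1 : 0 ≤ t * (1 - t) * (mx b * ip (y - y') (y - y') - qf b (y - y')) :=
      mul_nonneg (mul_nonneg ht0 (by linarith)) (by linarith [le_mx_mul b (y - y')])
    rw [e, hy, hy', mul_one]
    have e2 := mul_le_mul_of_nonneg_left h1 (by linarith : 0 ≤ 1 - t)
    have e3 := mul_le_mul_of_nonneg_left h2 ht0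
    linarith
  have hw0 : 0 < ip w w := by linarith
  refine H (nrm w) (ip_nrm hw0) ?_ ?_
  · have e := inv_sqrt_sq hw0
    have hk0 : 0 ≤ (√(ip w w))⁻¹ ^ 2 := sq_nonneg _
    have hk2 : (√(ip w w))⁻¹ ^ 2 ≤ 2 := by nlinarith
    rw [nrm, qf_smul]
    have hQ0 : 0 ≤ mx b * ip w w - qf b w := by linarith [le_mx_mul b w]
    calc mx b - (√(ip w w))⁻¹ ^ 2 * qf b w
        = (√(ip w w))⁻¹ ^ 2 * (mx b * ip w w - qf b w) := by
          rw [mul_sub, mul_left_comm, e, mul_one]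
      _ ≤ 2 * θ := mul_le_mul hk2 hQ hQ0 (by norm_num)
  · rw [nrm, ip_smul_left, hwx, mul_zero]

lemma exists_sgn : ∃ sgn : V10 → Bool, ∀ a, a ≠ 0 →
    sgn (-a) = !sgn a ∧ (sgn a = true → mx (-a) ≤ mx a) := by
  classical
  obtain ⟨lo, -⟩ := exists_wellOrder V10
  refine ⟨fun a => decide (mx (-a) < mx a ∨ (mx (-a) = mx a ∧ lo.lt a (-a))), fun a ha => ⟨?_, ?_⟩⟩
  · have hne : a ≠ -a := by
      intro h
      apply ha
      funext i
      have := congrFun h i
      simp only [Pi.neg_apply] at this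
      simp only [Pi.zero_apply]
      linarith
    simp only [neg_neg]
    rw [Bool.eq_not_iff]
    intro h
    rw [decide_eq_decide] at h
    rcases lt_trichotomy (mx (-a)) (mx a) with h1 | h1 | h1
    · rcases h.2 (Or.inl h1) with h2 | h2
      · exact lt_asymm h1 h2
      · exact h1.ne' h2.1
    · rcases @lt_or_gt_of_ne _ lo _ _ hne with h3 | h3
      · rcases h.2 (Or.inr ⟨h1, h3⟩) with h2 | h2
        · exact h2.ne' h1
        · exact @lt_asymm _ lo.toPartialOrder.toPreorder _ _ h3 h2.2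
      · rcases h.1 (Or.inr ⟨h1.symm, h3⟩) with h2 | h2
        · exact h2.ne h1
        · exact @lt_asymm _ lo.toPartialOrder.toPreorder _ _ h3 h2.2
    · rcases h.1 (Or.inl h1) with h2 | h2
      · exact lt_asymm h1 h2
      · exact h1.ne' h2.1
  · intro h
    rcases of_decide_eq_true h with h | h
    · exact h.le
    · exact h.1.le

lemma exists_nrm_close {η : ℝ} (hη : 0 < η) : ∃ δ > 0, ∀ a b : V4, ∑ i, |a i| = 1 →
    ∑ i, |b i| = 1 → dist a b ≤ δ → ∀ y : V4, ip y y = 1 →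
      |ip y (nrm a) - ip y (nrm b)| < η := by
  have hK : IsCompact {a : V4 | ∑ i, |a i| = 1} := by
    refine (isCompact_closedBall (0 : V4) 1).of_isClosed_subset
      (isClosed_eq (by fun_prop) continuous_const) fun x hx => ?_
    rw [mem_closedBall_zero_iff, pi_norm_le_iff_of_nonneg zero_le_one]
    intro i
    rw [Real.norm_eq_abs, ← (hx : ∑ i, |x i| = 1)]
    exact Finset.single_le_sum (f := fun i => |x i|) (fun i _ => abs_nonneg _) (Finset.mem_univ i)
  have hc : ContinuousOn nrm {a : V4 | ∑ i, |a i| = 1} := by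
    refine ContinuousOn.smul (ContinuousOn.inv₀ (continuous_ip_self.sqrt).continuousOn ?_)
      continuousOn_id
    intro a ha
    refine (Real.sqrt_pos.2 ?_).ne'
    have ha' : |a 0| + |a 1| + |a 2| + |a 3| = 1 := by
      rw [← (ha : ∑ i, |a i| = 1), Fin.sum_univ_four]
    have e : ip a a = |a 0| ^ 2 + |a 1| ^ 2 + |a 2| ^ 2 + |a 3| ^ 2 := by
      simp only [sq_abs, ip]; ring
    rw [e]
    nlinarith [sq_nonneg (|a 0| - 1 / 4), sq_nonneg (|a 1| - 1 / 4), sq_nonneg (|a 2| - 1 / 4),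
      sq_nonneg (|a 3| - 1 / 4)]
  obtain ⟨δ, hδ, h⟩ := Metric.uniformContinuousOn_iff.1 (hK.uniformContinuousOn_of_continuous hc)
    (η / 5) (by positivity)
  refine ⟨δ / 2, by positivity, fun a b ha hb hab y hy => ?_⟩
  have h1 := h a ha b hb (by linarith)
  have h2 : ∀ i, |y i * (nrm a i - nrm b i)| ≤ η / 5 := by
    intro i
    rw [abs_mul]
    have : |nrm a i - nrm b i| ≤ η / 5 := by
      rw [← Real.dist_eq]; exact (dist_le_pi_dist _ _ i).trans h1.le
    calc _ ≤ 1 * (η / 5) := mul_le_mul (abs_coord_le hy i) this (abs_nonneg _) zero_le_one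
      _ = _ := one_mul _
  have e : ip y (nrm a) - ip y (nrm b) = y 0 * (nrm a 0 - nrm b 0) + y 1 * (nrm a 1 - nrm b 1) +
      y 2 * (nrm a 2 - nrm b 2) + y 3 * (nrm a 3 - nrm b 3) := by
    simp only [ip]; ring
  have a0 := abs_le.1 (h2 0)
  have a1 := abs_le.1 (h2 1)
  have a2 := abs_le.1 (h2 2)
  have a3 := abs_le.1 (h2 3)
  rw [e, abs_lt]
  constructor <;> linarith [a0.1, a0.2, a1.1, a1.2, a2.1, a2.2, a3.1, a3.2]

lemma ip_pos_of_sum_abs {a : V4} (ha : ∑ i, |a i| = 1) : 0 < ip a a := by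
  have ha' : |a 0| + |a 1| + |a 2| + |a 3| = 1 := by
    rw [← ha, Fin.sum_univ_four]
  have e : ip a a = |a 0| ^ 2 + |a 1| ^ 2 + |a 2| ^ 2 + |a 3| ^ 2 := by
    simp only [sq_abs, ip]; ring
  rw [e]
  nlinarith [sq_nonneg (|a 0| - 1 / 4), sq_nonneg (|a 1| - 1 / 4), sq_nonneg (|a 2| - 1 / 4),
    sq_nonneg (|a 3| - 1 / 4)]

end Crest.Agent.R50
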