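import Crest.Agent.Lib.Z2Chain.Basic

/-!
The clique complex of a signed double cover of `K₁₀` has `Z/2`-index at most `2`
(the Arnoux--Marin bound: eleven vertices are needed for index `3`).
-/

set_option autoImplicit false

namespace Crest.Agent.R50

open Finset Crest.Agent.Z2Chain

/-- signed colours -/
abbrev Lab := Fin 10 × ZMod 2

/-- the antipode on signed colours -/
def flip (u : Lab) : Lab := (u.1, u.2 + 1)

lemma z2_one_add_one : (1 + 1 : ZMod 2) = 0 := by decide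

lemma flip_invol : Function.Involutive flip := by
  intro u
  simp [flip, add_assoc, z2_one_add_one]

variable (g : Fin 10 → Fin 10 → ZMod 2)

/-- incompatibility indicator -/
def inc (u v : Lab) : ZMod 2 := u.2 + v.2 + g u.1 v.1

/-- compatible pairs with colours in `V` -/
def RV (V : Finset (Fin 10)) (u v : Lab) : Prop := inc g u v = 0 ∧ u.1 ∈ V ∧ v.1 ∈ V

/-- index at least `k - 1` on the colours `V` -/
def Ind (V : Finset (Fin 10)) (k : ℕ) : Prop := ∃ c, IndChain flip (RV g V) k c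

lemma z2_cases (x : ZMod 2) : x = 0 ∨ x = 1 := by
  revert x; decide

variable {g}

lemma inc_flip_right (u v : Lab) : inc g u (flip v) = inc g u v + 1 := by
  simp only [inc, flip]; ring

lemma RV_flip (V : Finset (Fin 10)) (u v : Lab) (h : RV g V u v) : RV g V (flip u) (flip v) := by
  refine ⟨?_, h.2.1, h.2.2⟩
  have := h.1
  simp only [inc, flip] at this ⊢
  linear_combination this + z2_one_add_one

lemma Ind.del {V : Finset (Fin 10)} {k : ℕ} (h : Ind g V (k + 1)) {S : Finset Lab}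
    (hS : ∀ u ∈ S, ∀ v ∈ S, inc g u v = 0) (hd : ∀ i, g i i = 0) :
    Ind g (V \ S.image Prod.fst) k := by
  obtain ⟨c, hc⟩ := h
  obtain ⟨c', hc', -⟩ := IndChain.delete flip_invol (fun u => u ∈ S)
    (fun u v huv hu hv => by
      have h1 := hS u hu _ hv
      rw [inc_flip_right, huv.1] at h1
      simp at h1)
    (fun v hv hv' => by
      have h1 := hS v hv _ hv'
      rw [inc_flip_right, hS v hv v hv] at h1
      simp at h1) hc
  have key : ∀ u : Lab, ¬ (u ∈ S ∨ flip u ∈ S) → u.1 ∉ S.image Prod.fst := by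
    intro u hu h
    obtain ⟨v, hv, hvu⟩ := Finset.mem_image.1 h
    apply hu
    rcases z2_cases (u.2 + v.2) with h0 | h0
    · left
      have : u = v := Prod.ext hvu.symm (by linear_combination h0 - v.2 * z2_one_add_one)
      exact this ▸ hv
    · right
      have : flip u = v := Prod.ext hvu.symm (by
        simp only [flip]; linear_combination h0 - v.2 * z2_one_add_one + z2_one_add_one)
      exact this ▸ hv
  refine ⟨c', hc'.mono fun u v h => ⟨h.1.1, ?_, ?_⟩⟩
  · exact Finset.mem_sdiff.2 ⟨h.1.2.1, key u h.2.1⟩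
  · exact Finset.mem_sdiff.2 ⟨h.1.2.2, key v h.2.2⟩

lemma Ind.mono {V V' : Finset (Fin 10)} (hV : V ⊆ V') {k : ℕ} (h : Ind g V k) : Ind g V' k := by
  obtain ⟨c, hc⟩ := h
  exact ⟨c, hc.mono fun u v h => ⟨h.1, hV h.2.1, hV h.2.2⟩⟩

lemma inc_self (hd : ∀ i, g i i = 0) (u : Lab) : inc g u u = 0 := by
  simp only [inc, hd]
  linear_combination u.2 * z2_one_add_one

lemma inc_comm (hs : ∀ i j, g i j = g j i) (u v : Lab) : inc g u v = inc g v u := by
  simp only [inc, hs u.1 v.1]; ring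

lemma Ind.le_card (hd : ∀ i, g i i = 0) {k : ℕ} :
    ∀ {V : Finset (Fin 10)}, Ind g V k → k ≤ V.card := by
  induction k with
  | zero => intro V _; exact Nat.zero_le _
  | succ k ih =>
    intro V h
    rcases V.eq_empty_or_nonempty with rfl | ⟨i, hi⟩
    · obtain ⟨c, hc⟩ := h
      exact absurd (hc.of_le (by omega : 1 ≤ k + 1))
        (IndChain.not_empty fun u hu => Finset.notMem_empty _ hu.2.1)
    · have h1 := h.del (S := {(i, 0)}) (by
        intro u hu v hv
        rw [Finset.mem_singleton.1 hu, Finset.mem_singleton.1 hv]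
        exact inc_self hd _) hd
      have h2 := ih h1
      rw [Finset.image_singleton, Finset.sdiff_singleton_eq_erase, Finset.card_erase_of_mem hi] at h2
      have := Finset.card_pos.2 ⟨i, hi⟩
      omega

lemma Ind.two_card (hd : ∀ i, g i i = 0) (hs : ∀ i j, g i j = g j i) {V : Finset (Fin 10)}
    (h : Ind g V 2) : 3 ≤ V.card := by
  by_contra hlt
  have h2 : V.card = 2 := le_antisymm (by omega) (h.le_card hd)
  obtain ⟨i, j, -, rfl⟩ := Finset.card_eq_two.1 h2
  have h1 := h.del (S := {(i, 0), (j, g i j)}) (by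
    intro u hu v hv
    rcases Finset.mem_insert.1 hu with rfl | hu <;> rcases Finset.mem_insert.1 hv with rfl | hv
    · exact inc_self hd _
    · rw [Finset.mem_singleton.1 hv]
      simp only [inc]
      linear_combination g i j * z2_one_add_one
    · rw [Finset.mem_singleton.1 hu]
      simp only [inc, hs j i]
      linear_combination g i j * z2_one_add_one
    · rw [Finset.mem_singleton.1 hu, Finset.mem_singleton.1 hv]
      exact inc_self hd _) hd
  have h3 := h1.le_card hd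
  simp at h3

lemma Ind.cycle (hd : ∀ i, g i i = 0) {V : Finset (Fin 10)} {k : ℕ} (h : Ind g V k) :
    ∃ Z : Ch Lab, bd 1 Z = 0 ∧ Z ≠ 0 ∧ Z ∈ Supp fun S => Clq (RV g V) S ∧ S.card = k := by
  obtain ⟨c, hc⟩ := h
  refine ⟨zc flip c k, hc.bd_zc flip_invol k le_rfl, fun hz => ?_,
    hc.zc_mem flip_invol (RV_flip V) k le_rfl⟩
  have := Ind.le_card hd ⟨_, hc.extend_zero hz (V.card + 1)⟩
  omega

lemma card_image_fst (hd : ∀ i, g i i = 0) {S : Finset Lab}
    (hS : ∀ u ∈ S, ∀ v ∈ S, inc g u v = 0) : (S.image Prod.fst).card = S.card := by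
  refine Finset.card_image_of_injOn fun u hu v hv huv => ?_
  have := hS u hu v hv
  simp only [inc, huv, hd] at this
  exact Prod.ext huv (by linear_combination this - v.2 * z2_one_add_one)

lemma no_five (hd : ∀ i, g i i = 0) (hs : ∀ i j, g i j = g j i) (h : Ind g univ 4)
    {S : Finset Lab} (hS : ∀ u ∈ S, ∀ v ∈ S, inc g u v = 0) : S.card ≠ 5 := by
  intro h5
  have h1 := h.del hS hd
  obtain ⟨Z, -, hZ, hZs⟩ := h1.cycle hd
  obtain ⟨T, hT⟩ := Finsupp.support_nonempty_iff.2 hZ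
  obtain ⟨hT1, hT2⟩ := mem_Supp.1 hZs T hT
  have hT3 : ∀ u ∈ T, ∀ v ∈ T, inc g u v = 0 := fun u hu v hv => (hT1 u hu v hv).1
  have h2 := (h1.del hT3 hd).two_card hd hs
  have hsub : T.image Prod.fst ⊆ univ \ S.image Prod.fst := by
    intro i hi
    obtain ⟨u, hu, rfl⟩ := Finset.mem_image.1 hi
    exact (hT1 u hu u hu).2.1
  rw [Finset.card_sdiff_of_subset hsub, Finset.card_sdiff_of_subset (Finset.subset_univ _),
    card_image_fst hd hS, card_image_fst hd hT3, h5, hT2] at h2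
  simp at h2

lemma no_four_four (hd : ∀ i, g i i = 0) (hs : ∀ i j, g i j = g j i) (h : Ind g univ 4)
    {S T : Finset Lab} (hS : ∀ u ∈ S, ∀ v ∈ S, inc g u v = 0)
    (hT : ∀ u ∈ T, ∀ v ∈ T, inc g u v = 0) (hS4 : S.card = 4) (hT4 : T.card = 4) :
    ∃ u ∈ S, ∃ v ∈ T, v.1 = u.1 := by
  by_contra hne
  push Not at hne
  have h2 := ((h.del hS hd).del hT hd).two_card hd hs
  have hsub : T.image Prod.fst ⊆ univ \ S.image Prod.fst := by
    intro i hi
    obtain ⟨v, hv, rfl⟩ := Finset.mem_image.1 hi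
    refine Finset.mem_sdiff.2 ⟨Finset.mem_univ _, fun h => ?_⟩
    obtain ⟨u, hu, huv⟩ := Finset.mem_image.1 h
    exact hne u hu v hv huv.symm
  rw [Finset.card_sdiff_of_subset hsub, Finset.card_sdiff_of_subset (Finset.subset_univ _),
    card_image_fst hd hS, card_image_fst hd hT, hS4, hT4] at h2
  simp at h2

lemma ne_col {x y p q : Lab} (hp : inc g x p + inc g y p = 1) (hq : inc g x q + inc g y q = 0) :
    x.1 ≠ y.1 := by
  intro h
  simp only [inc, h] at hp hq
  have : (1 : ZMod 2) = 0 := by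
    linear_combination hq - hp + (p.2 + g y.1 p.1 - q.2 - g y.1 q.1) * z2_one_add_one
  exact one_ne_zero this

section Walk

variable (hd : ∀ i, g i i = 0) (hs : ∀ i j, g i j = g j i) (h : Ind g univ 4)
  {Z : Ch Lab} (hZ : bd 1 Z = 0) (hZs : Z ∈ Supp fun S => Clq (RV g univ) S ∧ S.card = 4)

include hd hs h hZ hZs

lemma step {a b c d : Lab} (hF : ({a, b, c, d} : Finset Lab) ∈ Z.support) :
    ∃ v, ({b, c, d, v} : Finset Lab) ∈ Z.support ∧ inc g v a = 1 := by
  obtain ⟨hc, h4⟩ := mem_Supp.1 hZs _ hF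
  have ha : a ∉ ({b, c, d} : Finset Lab) := by
    intro ha
    rw [Finset.insert_eq_of_mem ha] at h4
    have := Finset.card_le_three (a := b) (b := c) (c := d)
    omega
  obtain ⟨v, hv, hv'⟩ := exists_neighbour hZ hF (a := a) (by simp)
  rw [Finset.erase_insert ha] at hv'
  have e : insert v ({b, c, d} : Finset Lab) = {b, c, d, v} := by
    ext x; simp only [Finset.mem_insert, Finset.mem_singleton]; tauto
  refine ⟨v, e ▸ hv', ?_⟩
  obtain ⟨hc', -⟩ := mem_Supp.1 hZs _ hv'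
  rcases z2_cases (inc g v a) with h0 | h0
  · exfalso
    refine no_five hd hs h (S := insert v {a, b, c, d}) ?_ ?_
    · have hva : ∀ x ∈ ({a, b, c, d} : Finset Lab), inc g v x = 0 := by
        intro x hx
        rcases Finset.mem_insert.1 hx with rfl | hx
        · exact h0
        · exact (hc' v (Finset.mem_insert_self _ _) x (Finset.mem_insert_of_mem hx)).1
      intro x hx y hy
      rcases Finset.mem_insert.1 hx with rfl | hx' <;> rcases Finset.mem_insert.1 hy with rfl | hy'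
      · exact inc_self hd _
      · exact hva y hy'
      · rw [inc_comm hs]; exact hva x hx'
      · exact (hc x hx' y hy').1
    · rw [Finset.card_insert_of_notMem hv, h4]
  · exact h0

omit hd hs h hZ in
lemma fac_inc {a b c d : Lab} (hF : ({a, b, c, d} : Finset Lab) ∈ Z.support) :
    ∀ x ∈ ({a, b, c, d} : Finset Lab), ∀ y ∈ ({a, b, c, d} : Finset Lab), inc g x y = 0 :=
  fun x hx y hy => ((mem_Supp.1 hZs _ hF).1 x hx y hy).1

lemma walk {a b c d : Lab} (hF : ({a, b, c, d} : Finset Lab) ∈ Z.support) :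
    (∃ v, inc g v a = 1 ∧ inc g v b = 0 ∧ inc g v c = 0 ∧ inc g v d = 0) ∧
    (∃ u, inc g u a = 1 ∧ inc g u b = 1 ∧ inc g u c = 0 ∧ inc g u d = 0) := by
  obtain ⟨v, hF1, hva⟩ := step hd hs h hZ hZs hF
  obtain ⟨u, hF2, hub⟩ := step hd hs h hZ hZs hF1
  obtain ⟨w, hF3, hwc⟩ := step hd hs h hZ hZs hF2
  obtain ⟨t, hF4, htd⟩ := step hd hs h hZ hZs hF3
  have f0 := fac_inc hZs hF
  have f1 := fac_inc hZs hF1
  have f2 := fac_inc hZs hF2
  have f3 := fac_inc hZs hF3
  have f4 := fac_inc hZs hF4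
  simp only [Finset.mem_insert, Finset.mem_singleton, forall_eq_or_imp, forall_eq] at f0 f1 f2 f3 f4
  obtain ⟨⟨aa, ab, ac, ad⟩, ⟨ba, bb, bc, bd'⟩, ⟨ca, cb, cc, cd⟩, ⟨da, db, dc, dd⟩⟩ := f0
  obtain ⟨⟨-, -, -, bv⟩, ⟨-, -, -, cv⟩, ⟨-, -, -, dv⟩, ⟨vb, vc, vd, vv⟩⟩ := f1
  obtain ⟨-, -, -, ⟨uc, ud, uv, -⟩⟩ := f2
  obtain ⟨-, -, -, ⟨wd, wv, wu, -⟩⟩ := f3
  obtain ⟨-, -, -, ⟨tv, tu, tw, -⟩⟩ := f4
  have hav : inc g a v = 1 := by rw [inc_comm hs]; exact hva
  have hbu : inc g b u = 1 := by rw [inc_comm hs]; exact hub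
  have hcw : inc g c w = 1 := by rw [inc_comm hs]; exact hwc
  refine ⟨⟨v, hva, vb, vc, vd⟩, ⟨u, ?_, hub, uc, ud⟩⟩
  obtain ⟨x, hx, y, hy, hxy⟩ := no_four_four hd hs h (fac_inc hZs hF) (fac_inc hZs hF4)
    (mem_Supp.1 hZs _ hF).2 (mem_Supp.1 hZs _ hF4).2
  simp only [Finset.mem_insert, Finset.mem_singleton] at hx hy
  rcases hy with rfl | rfl | rfl | rfl <;> rcases hx with rfl | rfl | rfl | rfl
  · exact absurd hxy (ne_col (p := x) (q := b) (by rw [hva, aa]; rfl) (by rw [vb, ab]; rfl))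
  · exact absurd hxy (ne_col (p := a) (q := c) (by rw [hva, ba]; rfl) (by rw [vc, bc]; rfl))
  · exact absurd hxy (ne_col (p := a) (q := b) (by rw [hva, ca]; rfl) (by rw [vb, cb]; rfl))
  · exact absurd hxy (ne_col (p := a) (q := b) (by rw [hva, da]; rfl) (by rw [vb, db]; rfl))
  · exact absurd hxy (ne_col (p := v) (q := c) (by rw [uv, hav]; rfl) (by rw [uc, ac]; rfl))
  · exact absurd hxy (ne_col (p := x) (q := c) (by rw [hub, bb]; rfl) (by rw [uc, bc]; rfl))
  · exact absurd hxy (ne_col (p := b) (q := d) (by rw [hub, cb]; rfl) (by rw [ud, cd]; rfl))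
  · exact absurd hxy (ne_col (p := b) (q := c) (by rw [hub, db]; rfl) (by rw [uc, dc]; rfl))
  · exact absurd hxy (ne_col (p := v) (q := d) (by rw [wv, hav]; rfl) (by rw [wd, ad]; rfl))
  · exact absurd hxy (ne_col (p := u) (q := d) (by rw [wu, hbu]; rfl) (by rw [wd, bd']; rfl))
  · exact absurd hxy (ne_col (p := x) (q := d) (by rw [hwc, cc]; rfl) (by rw [wd, cd]; rfl))
  · exact absurd hxy (ne_col (p := c) (q := v) (by rw [hwc, dc]; rfl) (by rw [wv, dv]; rfl))
  · rcases z2_cases (inc g u x) with h0 | h0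
    · have h0' : inc g x u = 0 := by rw [inc_comm hs]; exact h0
      exact absurd hxy (ne_col (p := v) (q := u) (by rw [tv, hav]; rfl) (by rw [tu, h0']; rfl))
    · exact h0
  · exact absurd hxy (ne_col (p := u) (q := v) (by rw [tu, hbu]; rfl) (by rw [tv, bv]; rfl))
  · exact absurd hxy (ne_col (p := w) (q := v) (by rw [tw, hcw]; rfl) (by rw [tv, cv]; rfl))
  · exact absurd hxy (ne_col (p := x) (q := v) (by rw [htd, dd]; rfl) (by rw [tv, dv]; rfl))

end Walk

theorem not_ind_four (hd : ∀ i, g i i = 0) (hs : ∀ i j, g i j = g j i) : ¬ Ind g univ 4 := by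
  intro h
  obtain ⟨Z, hZ, hZ0, hZs⟩ := h.cycle hd
  obtain ⟨S, hS⟩ := Finsupp.support_nonempty_iff.2 hZ0
  obtain ⟨a, b, c, d, hab, hac, had, hbc, hbd, hcd, rfl⟩ :=
    Finset.card_eq_four.1 (mem_Supp.1 hZs _ hS).2
  have perm : ∀ x y z t : Lab, (∀ s, s = x ∨ s = y ∨ s = z ∨ s = t ↔ s = a ∨ s = b ∨ s = c ∨ s = d) →
      ({x, y, z, t} : Finset Lab) ∈ Z.support := by
    intro x y z t hh
    have : ({x, y, z, t} : Finset Lab) = {a, b, c, d} := by
      ext s; simp only [Finset.mem_insert, Finset.mem_singleton]; exact hh s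
    exact this ▸ hS
  obtain ⟨⟨va, a1, a2, a3, a4⟩, ⟨uab, p1, p2, p3, p4⟩⟩ := walk hd hs h hZ hZs hS
  obtain ⟨⟨vb, b2, b1, b3, b4⟩, -⟩ := walk hd hs h hZ hZs (perm b a c d (fun s => by tauto))
  obtain ⟨⟨vc, c3, c1, c2, c4⟩, ⟨uac, q3, q1, q2, q4⟩⟩ :=
    walk hd hs h hZ hZs (perm c a b d (fun s => by tauto))
  obtain ⟨⟨vd, d4, d1, d2, d3⟩, ⟨uad, r4, r1, r2, r3⟩⟩ :=
    walk hd hs h hZ hZs (perm d a b c (fun s => by tauto))
  have f0 := fac_inc hZs hS
  let ψ : Fin 10 → ZMod 2 × ZMod 2 × ZMod 2 := fun i =>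
    (inc g (i, 0) a + inc g (i, 0) b, inc g (i, 0) a + inc g (i, 0) c, inc g (i, 0) a + inc g (i, 0) d)
  have hψ : ∀ x : Lab, ψ x.1 = (inc g x a + inc g x b, inc g x a + inc g x c, inc g x a + inc g x d) := by
    intro x
    simp only [ψ, inc, Prod.mk.injEq]
    refine ⟨?_, ?_, ?_⟩ <;> linear_combination (-x.2) * z2_one_add_one
  have hnd1 : [a.1, b.1, c.1, d.1].Nodup := by
    have hinj : ∀ x ∈ ({a, b, c, d} : Finset Lab), ∀ y ∈ ({a, b, c, d} : Finset Lab),
        x ≠ y → x.1 ≠ y.1 := by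
      intro x hx y hy hxy h1
      have := f0 x hx y hy
      simp only [inc, h1, hd] at this
      exact hxy (Prod.ext h1 (by linear_combination this - y.2 * z2_one_add_one))
    simp only [List.nodup_cons, List.mem_cons, List.not_mem_nil, or_false, not_or,
      not_false_eq_true, List.nodup_nil, and_true]
    refine ⟨⟨hinj a ?_ b ?_ hab, hinj a ?_ c ?_ hac, hinj a ?_ d ?_ had⟩,
      ⟨hinj b ?_ c ?_ hbc, hinj b ?_ d ?_ hbd⟩, hinj c ?_ d ?_ hcd⟩ <;> simp
  have hmap : [va.1, vb.1, vc.1, vd.1, uab.1, uac.1, uad.1].map ψ =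
      [(1, 1, 1), (1, 0, 0), (0, 1, 0), (0, 0, 1), (0, 1, 1), (1, 0, 1), (1, 1, 0)] := by
    simp only [List.map_cons, List.map_nil, hψ, a1, a2, a3, a4, b1, b2, b3, b4, c1, c2, c3, c4,
      d1, d2, d3, d4, p1, p2, p3, p4, q1, q2, q3, q4, r1, r2, r3, r4]
    decide
  have hnd2 : [va.1, vb.1, vc.1, vd.1, uab.1, uac.1, uad.1].Nodup :=
    List.Nodup.of_map ψ (by rw [hmap]; decide)
  have hzero : ∀ x ∈ ({a, b, c, d} : Finset Lab), ψ x.1 = (0, 0, 0) := by
    intro x hx
    rw [hψ, f0 x hx a (by simp), f0 x hx b (by simp), f0 x hx c (by simp), f0 x hx d (by simp)]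
    simp
  have hnd : ([a.1, b.1, c.1, d.1] ++ [va.1, vb.1, vc.1, vd.1, uab.1, uac.1, uad.1]).Nodup := by
    rw [List.nodup_append]
    refine ⟨hnd1, hnd2, fun i hi j hj hij => ?_⟩
    have h1 : ψ i = (0, 0, 0) := by
      simp only [List.mem_cons, List.not_mem_nil, or_false] at hi
      rcases hi with rfl | rfl | rfl | rfl <;> exact hzero _ (by simp)
    have h2 : ψ j ∈ [va.1, vb.1, vc.1, vd.1, uab.1, uac.1, uad.1].map ψ := List.mem_map_of_mem hj
    rw [hmap, ← hij, h1] at h2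
    revert h2
    decide
  have := hnd.length_le_card
  simp at this

end Crest.Agent.R50
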