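import Crest.Agent.Lib.Z2Chain.KyFan
import Crest.Agent.Lib.Z2Chain.SphereOdd
import Crest.Agent.R50.Geom
import Crest.Agent.R50.TwoGraph

/-!
The lines of `ℝ⁴` cannot be coloured with ten colours so that lines of the same colour are
uniformly far from orthogonal.
-/

set_option autoImplicit false

namespace Crest.Agent.R50

open Finset Crest.Agent.Z2Chain

lemma Dl_mem {V C : Type*} [DecidableEq V] (col : V → C) (sgn : V → Bool) (as : List (C × Bool))
    {P : Finset V → Prop} {c : Ch V} (hc : c ∈ Supp P) :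
    Dl (as.map (lw col sgn)) c ∈ Supp fun S => ∃ S0, P S0 ∧ S ⊆ S0 ∧
      ∀ a ∈ as, ∃ v ∈ S0, col v = a.1 ∧ sgn v = a.2 := by
  induction as generalizing P c with
  | nil => exact Supp_mono (fun S hS => ⟨S, hS, subset_rfl, by simp⟩) hc
  | cons a as ih =>
    rw [List.map_cons, Dl_cons]
    have h1 : bd (lw col sgn a) c ∈ Supp fun S => ∃ S0, P S0 ∧ S ⊆ S0 ∧
        ∃ v ∈ S0, col v = a.1 ∧ sgn v = a.2 :=
      bd_mem _ (fun S hS v hv hw => ⟨S, hS, Finset.erase_subset _ _, v, hv, of_ind_ne_zero hw⟩) hc
    refine Supp_mono ?_ (ih h1)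
    rintro S ⟨S1, ⟨S0, h0, h10, hv⟩, hS1, has⟩
    refine ⟨S0, h0, hS1.trans h10, fun b hb => ?_⟩
    rcases List.mem_cons.1 hb with rfl | hb
    · exact hv
    · obtain ⟨v, hv, h⟩ := has b hb
      exact ⟨v, h10 hv, h⟩

lemma Dl_mem_NC {V C : Type*} [DecidableEq V] (col : V → C) (sgn : V → Bool)
    (ws : List (V → ZMod 2)) {c : Ch V} (hc : c ∈ Supp (NC col sgn)) :
    Dl ws c ∈ Supp (NC col sgn) := by
  induction ws generalizing c with
  | nil => exact hc
  | cons w ws ih => exact ih (bd_lw_mem_NC col sgn w hc)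

/-- sign bit of a real number -/
noncomputable def ng (r : ℝ) : ZMod 2 := if r < 0 then 1 else 0

lemma ng_eq_of_mul_pos {α β : ℝ} (h : 0 < α * β) : ng α = ng β := by
  rcases pos_and_pos_or_neg_and_neg_of_mul_pos h with h | h
  · simp [ng, h.1.le, h.2.le, not_lt.2]
  · simp [ng, h.1, h.2]

lemma ng_neg {β : ℝ} (h : β ≠ 0) : ng (-β) = ng β + 1 := by
  rcases lt_or_gt_of_ne h with h | h
  · rw [ng, ng, if_pos h, if_neg (by linarith), z2_one_add_one]
  · rw [ng, ng, if_pos (by linarith), if_neg (by linarith), zero_add]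

lemma ng_eq_of_close {α β η : ℝ} (h1 : η ≤ |β|) (h2 : |α - β| < η) : ng α = ng β := by
  apply ng_eq_of_mul_pos
  rw [abs_lt] at h2
  rcases abs_cases β with h | h <;> rw [h.1] at h1
  · exact mul_pos (by linarith) (by linarith)
  · exact mul_pos_of_neg_of_neg (by linarith) (by linarith)

/-- labelled vertices -/
abbrev LV := V10 × Bool

/-- antipode on labelled vertices -/
def flipV (v : LV) : LV := (v.1, !v.2)

lemma flipV_invol : Function.Involutive flipV := by
  intro v; simp [flipV]

/-- adjacency of labelled vertices -/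
def RL (δ : ℝ) (u v : LV) : Prop :=
  Good u.1 ∧ Good v.1 ∧ dist u.1 (if u.2 = v.2 then v.1 else -v.1) ≤ δ

lemma exists_chains9 {δ : ℝ} (hδ : 0 < δ) : ∃ c, IndChain flipV (RL δ) 10 c := by
  classical
  obtain ⟨sgn, hsgn⟩ := exists_sgn
  have hne : ∀ a : V10, ∑ i, |a i| = 1 → a ≠ 0 := by
    rintro a ha rfl
    simp at ha
  have hgood : ∀ a : V10, ∑ i, |a i| = 1 → Good (if sgn a = true then a else -a) := by
    intro a ha
    obtain ⟨h1, h2⟩ := hsgn a (hne a ha)
    by_cases h : sgn a = true
    · rw [if_pos h]; exact ⟨ha, h2 h⟩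
    · rw [if_neg h]
      have ha' : ∑ i, |(-a) i| = 1 := by simpa using ha
      refine ⟨ha', (hsgn (-a) (hne _ ha')).2 ?_⟩
      rw [h1]; simpa using h
  refine exists_indChain' 10 flipV_invol hδ
    (fun a => (if sgn a = true then a else -a, sgn a)) ?_ _ ?_
  · intro a ha
    obtain ⟨h1, -⟩ := hsgn a (hne a ha)
    simp only [flipV, h1]
    cases sgn a <;> simp
  · intro a b ha hb hab
    refine ⟨hgood a ha, hgood b hb, ?_⟩
    simp only
    cases sgn a <;> cases sgn b <;> simpa using hab

section Main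

variable {η : ℝ} (colour : V4 → Fin 10)

/-- colour of a labelled vertex -/
noncomputable def colL (v : LV) : Fin 10 := colour (top v.1)

/-- side of a labelled vertex with respect to `x` -/
noncomputable def sig (x : V4) (v : LV) : ZMod 2 := ng (ip (top v.1) x)

/-- minus labels of a set of colours -/
noncomputable def minusL (s : Finset (Fin 10)) : List (Fin 10 × Bool) :=
  s.toList.map fun k => (k, false)

lemma minusL_fst (s : Finset (Fin 10)) : (minusL s).map Prod.fst = s.toList := by
  simp [minusL, List.map_map, Function.comp_def]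

lemma minusL_perm {s : Finset (Fin 10)} {j : Fin 10} (hj : j ∈ s) :
    (minusL s).Perm ((j, false) :: minusL (s.erase j)) := by
  have := Finset.toList_insert (Finset.notMem_erase j s)
  rw [Finset.insert_erase hj] at this
  exact this.map fun k => (k, false)

open Classical in
/-- weighted count of the essential vertices of colour `i` -/
noncomputable def yv (Z : Ch LV) (i : Fin 10) (σ : LV → ZMod 2) : Ch LV :=
  bd (σ * lw (colL colour) Prod.snd (i, true))
    (Dl ((minusL (univ.erase i)).map (lw (colL colour) Prod.snd)) Z)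

lemma yv_add (Z : Ch LV) (i : Fin 10) (σ σ' : LV → ZMod 2) :
    yv colour Z i (σ + σ') = yv colour Z i σ + yv colour Z i σ' := by
  classical
  rw [yv, yv, yv, add_mul, bd_add]

lemma yv_congr (Z : Ch LV) (i : Fin 10) {σ σ' : LV → ZMod 2}
    (h : ∀ v, colL colour v = i → σ v = σ' v) : yv colour Z i σ = yv colour Z i σ' := by
  have : σ * lw (colL colour) Prod.snd (i, true) = σ' * lw (colL colour) Prod.snd (i, true) := by
    funext v
    by_cases hv : colL colour v = i
    · rw [Pi.mul_apply, Pi.mul_apply, h v hv]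
    · rw [Pi.mul_apply, Pi.mul_apply, lw, ind_of_not (fun h => hv h.1), mul_zero, mul_zero]
  rw [yv, yv, this]

variable (hη : 0 < η) (hη1 : η ≤ 1)
  (hsep : ∀ x y, ip x x = 1 → ip y y = 1 → colour x = colour y → η ≤ |ip x y|)

include hη hη1 hsep

lemma RL_nc {u v : LV} (h : RL (η ^ 2 / 300000) u v) (hc : colL colour u = colL colour v) :
    u.2 = v.2 := by
  by_contra hne
  have h3 := h.2.2
  rw [if_neg hne] at h3
  have h1 := ortho_pair hη hη1 le_rfl h.1 h.2.1 h3 (top_unit u.1) (by
    rw [mx, sub_self]; positivity)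
  exact absurd (hsep _ _ (top_unit _) (top_unit _) hc) (not_le.2 h1)

lemma yv_one {c : ℕ → Ch LV} (hc : IndChain flipV (RL (η ^ 2 / 300000)) 10 c) (i : Fin 10) :
    yv colour (zc flipV c 10) i 1 = sg ∅ := by
  classical
  have hlen : ((i, true) :: minusL (univ.erase i)).length = 10 := by
    simp [minusL]
  have := kyfan (colL colour) Prod.snd flipV_invol (fun v => rfl) (fun v => rfl)
    ((i, true) :: minusL (univ.erase i))
    (by
      rw [List.map_cons, minusL_fst, List.nodup_cons]
      exact ⟨by simp, Finset.nodup_toList _⟩)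
    (R := RL (η ^ 2 / 300000)) (fun u v h hc => RL_nc colour hη hη1 hsep h hc)
    (fun u _ => by
      rw [List.map_cons, minusL_fst, List.mem_cons, Finset.mem_toList]
      by_cases h : colL colour u = i
      · exact Or.inl h
      · exact Or.inr (Finset.mem_erase.2 ⟨h, Finset.mem_univ _⟩))
    (c := c) (by rw [hlen]; exact hc)
    (fun u v h => ⟨h.1, h.2.1, by simpa [flipV] using h.2.2⟩)
  rw [hlen, List.map_cons, Dl_cons, Dl_bd_comm] at this
  rw [yv, one_mul]
  convert this

/-- points that see the colours `i` and `j` on definite sides -/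
def Sees (i j : Fin 10) (x : V4) : Prop :=
  ∀ u, ip u u = 1 → (colour u = i ∨ colour u = j) → ip u x ≠ 0

lemma sig_pair {i j : Fin 10} {S0 : Finset LV} (hS0 : Clq (RL (η ^ 2 / 300000)) S0)
    (hall : ∀ k, k ≠ i → k ≠ j → ∃ z ∈ S0, colL colour z = k ∧ z.2 = false)
    {u v : LV} (hu : u ∈ S0) (hv : v ∈ S0) (hu2 : u.2 = true) (hv2 : v.2 = true)
    {x : V4} (hx : Sees colour i j x) :
    sig x u + sig x v = ng (ip (top u.1) (top v.1)) := by
  have huv := (hS0 u hu v hv).2.2
  rw [if_pos (hu2.trans hv2.symm)] at huv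
  have H : ∀ w, ip w w = 1 → mx u.1 - qf u.1 w ≤ 2 * (20 * (η ^ 2 / 300000)) → ip w x ≠ 0 := by
    intro w hw hq
    refine hx w hw ?_
    by_contra hne
    push Not at hne
    obtain ⟨z, hz, hz1, hz2⟩ := hall _ hne.1 hne.2
    have h1 := hS0 u hu z hz
    have h3 := h1.2.2
    rw [if_neg (by rw [hu2, hz2]; simp)] at h3
    have := ortho_pair hη hη1 le_rfl h1.1 h1.2.1 h3 hw (by linarith)
    exact absurd (hsep _ _ hw (top_unit _) hz1.symm) (not_le.2 this)
  have q1 : mx u.1 - qf u.1 (top u.1) ≤ 20 * (η ^ 2 / 300000) := by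
    rw [mx, sub_self]; positivity
  have q2 : mx u.1 - qf u.1 (top v.1) ≤ 20 * (η ^ 2 / 300000) := by
    have e1 := (abs_le.1 (abs_qf_sub_le huv (top_unit v.1))).1
    have e2 := mx_le_mx_add huv
    rw [mx.eq_1 v.1] at e2
    linarith
  by_cases hs : ip (top u.1) (top v.1) < 0
  · have hn : ip (-top v.1) (-top v.1) = 1 := by
      rw [ip_neg_right, ip_comm, ip_neg_right, neg_neg, top_unit]
    have hq : qf u.1 (-top v.1) = qf u.1 (top v.1) := by
      have := qf_smul u.1 (-1) (top v.1)
      simpa using this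
    have h := same_sign (top_unit u.1) hn (by rw [ip_neg_right]; linarith) q1 (by rw [hq]; exact q2) H
    have h' := ng_eq_of_mul_pos h
    rw [ip_comm (-top v.1), ip_neg_right, ip_comm x, ng_neg (H _ (top_unit _) (by
      have : 0 ≤ η ^ 2 / 300000 := by positivity
      linarith))] at h'
    rw [sig, sig, h', ng.eq_1 (ip (top u.1) (top v.1)), if_pos hs]
    linear_combination ng (ip (top v.1) x) * z2_one_add_one
  · have h := same_sign (top_unit u.1) (top_unit v.1) (not_lt.1 hs) q1 q2 H
    rw [sig, sig, ng_eq_of_mul_pos h, ng.eq_1 (ip (top u.1) (top v.1)), if_neg hs]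
    linear_combination ng (ip (top v.1) x) * z2_one_add_one

lemma door {c : ℕ → Ch LV} (hc : IndChain flipV (RL (η ^ 2 / 300000)) 10 c) {i j : Fin 10}
    (hij : i ≠ j) {x x' : V4} (hx : Sees colour i j x) (hx' : Sees colour i j x') :
    yv colour (zc flipV c 10) i (sig x) + yv colour (zc flipV c 10) j (sig x) =
      yv colour (zc flipV c 10) i (sig x') + yv colour (zc flipV c 10) j (sig x') := by
  classical
  set Z := zc flipV c 10 with hZ
  set l : Fin 10 × Bool → LV → ZMod 2 := lw (colL colour) Prod.snd with hl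
  set Rs : Finset (Fin 10) := (univ.erase i).erase j with hRs
  set W := Dl ((minusL Rs).map l) Z with hW
  set σ : LV → ZMod 2 := sig x + sig x' with hσ
  have hZs : Z ∈ Supp fun S => Clq (RL (η ^ 2 / 300000)) S ∧ S.card = 10 :=
    hc.zc_mem flipV_invol (fun u v h => ⟨h.1, h.2.1, by simpa [flipV] using h.2.2⟩) 10 le_rfl
  have hZn : Z ∈ Supp (NC (colL colour) Prod.snd) :=
    Supp_mono (fun S hS u hu v hv h => RL_nc colour hη hη1 hsep (hS.1 u hu v hv) h) hZs
  have hWn : W ∈ Supp (NC (colL colour) Prod.snd) := Dl_mem_NC _ _ _ hZn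
  have hyi : ∀ τ : LV → ZMod 2, yv colour Z i τ = bd (τ * l (i, true)) (bd (l (j, false)) W) := by
    intro τ
    have hp := (minusL_perm (s := univ.erase i) (j := j)
      (Finset.mem_erase.2 ⟨hij.symm, Finset.mem_univ _⟩)).map l
    have := Dl_perm hp Z
    rw [List.map_cons, Dl_cons, Dl_bd_comm] at this
    rw [yv, hW, hRs, ← this]
  have hyj : ∀ τ : LV → ZMod 2, yv colour Z j τ = bd (τ * l (j, true)) (bd (l (i, false)) W) := by
    intro τ
    have hp := (minusL_perm (s := univ.erase j) (j := i)
      (Finset.mem_erase.2 ⟨hij, Finset.mem_univ _⟩)).map l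
    have := Dl_perm hp Z
    rw [List.map_cons, Dl_cons, Dl_bd_comm, Finset.erase_right_comm] at this
    rw [yv, hW, hRs, ← this]
  have hone : (1 : LV → ZMod 2) = (ind fun v => colL colour v ∈ (minusL Rs).map Prod.fst) +
      ((l (i, true) + l (j, true)) + (l (i, false) + l (j, false))) := by
    funext v
    simp only [Pi.add_apply, Pi.one_apply, hl, lw, ind, minusL_fst, Finset.mem_toList, hRs,
      Finset.mem_erase, Finset.mem_univ, and_true]
    by_cases h1 : colL colour v = i
    · have h2 : colL colour v ≠ j := fun h => hij (h1.symm.trans h)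
      rcases Bool.eq_false_or_eq_true v.2 with h3 | h3 <;> simp [h1, hij, h3]
    · by_cases h2 : colL colour v = j
      · rcases Bool.eq_false_or_eq_true v.2 with h3 | h3 <;> simp [h2, hij.symm, h3]
      · simp [h1, h2]
  have hbW : bd (l (i, true) + l (j, true)) W = bd (l (i, false)) W + bd (l (j, false)) W := by
    have h0 : Dl ((minusL Rs).map l) (bd 1 Z) = 0 := by
      rw [hc.bd_zc flipV_invol 10 le_rfl, map_zero]
    rw [hone, bd_add, map_add, Dl_bd_col_eq_zero _ _ _ (by
      rw [minusL_fst]; exact Finset.nodup_toList _) hZn, zero_add, Dl_bd_comm, bd_add] at h0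
    rw [← bd_add]
    exact eq_of_add_eq_zero_z2 h0
  have hz1 : ∀ k : Fin 10, bd (σ * l (k, true)) (bd (l (k, false)) W) = 0 := by
    intro k
    refine bd_bd_eq_zero (fun S hS u hu v hv _ => ?_) hWn
    have e1 := lw_mul_lw_not (colL colour) Prod.snd hS (k, true) hv hu
    have e2 := lw_mul_lw_not (colL colour) Prod.snd hS (k, true) hu hv
    simp only [Bool.not_true] at e1 e2
    simp only [Pi.mul_apply, hl]
    linear_combination σ v * e1 - σ u * e2
  have hz2 : bd (σ * (l (i, true) + l (j, true))) (bd (l (i, true) + l (j, true)) W) = 0 := by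
    refine bd_bd_eq_zero (fun S hS u hu v hv _ => ?_)
      (Dl_mem (colL colour) Prod.snd (minusL Rs) hZs)
    obtain ⟨S0, ⟨hS0, -⟩, hsub, hall⟩ := hS
    have hpl : ∀ w : LV, (l (i, true) + l (j, true)) w ≠ 0 → w.2 = true := by
      intro w hw
      by_contra h
      apply hw
      rw [Pi.add_apply, hl, lw, lw, ind_of_not (fun h' => h h'.2), ind_of_not (fun h' => h h'.2),
        add_zero]
    by_cases h1 : (l (i, true) + l (j, true)) u = 0
    · simp only [Pi.mul_apply, h1, zero_mul, mul_zero]
    by_cases h2 : (l (i, true) + l (j, true)) v = 0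
    · simp only [Pi.mul_apply, h2, zero_mul, mul_zero]
    have hall' : ∀ k, k ≠ i → k ≠ j → ∃ z ∈ S0, colL colour z = k ∧ z.2 = false := by
      intro k hki hkj
      refine hall (k, false) ?_
      refine List.mem_map.2 ⟨k, ?_, rfl⟩
      rw [Finset.mem_toList, hRs]
      exact Finset.mem_erase.2 ⟨hkj, Finset.mem_erase.2 ⟨hki, Finset.mem_univ _⟩⟩
    have e1 := sig_pair colour hη hη1 hsep hS0 hall' (hsub hu) (hsub hv) (hpl u h1) (hpl v h2) hx
    have e2 := sig_pair colour hη hη1 hsep hS0 hall' (hsub hu) (hsub hv) (hpl u h1) (hpl v h2) hx'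
    have e3 : σ u = σ v := by
      simp only [hσ, Pi.add_apply]
      linear_combination e1 - e2 + (sig x' u - sig x v) * z2_one_add_one
    simp only [Pi.mul_apply, e3]
    ring
  rw [hbW, map_add, mul_add, bd_add, bd_add, hz1, hz1, zero_add, add_zero, ← hyi, ← hyj, hσ,
    yv_add, yv_add] at hz2
  apply eq_of_add_eq_zero_z2
  rw [← hz2]
  abel

theorem no_ten_colouring (heven : ∀ x, colour (-x) = colour x) : False := by
  classical
  obtain ⟨c, hc⟩ := exists_chains9 (δ := η ^ 2 / 300000) (by positivity)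
  set Z := zc flipV c 10 with hZ
  let y : Fin 10 → V4 → ZMod 2 := fun i x => yv colour Z i (sig x) ∅
  let g : Fin 10 → Fin 10 → ZMod 2 := fun i j =>
    if i ≠ j ∧ ∃ x, Sees colour i j x ∧ y i x + y j x = 1 then 1 else 0
  have hd : ∀ i, g i i = 0 := fun i => by simp [g]
  have hsees : ∀ i j x, Sees colour i j x → Sees colour j i x :=
    fun i j x h u hu hc => h u hu hc.symm
  have hs : ∀ i j, g i j = g j i := by
    intro i j
    simp only [g]
    refine if_congr ⟨?_, ?_⟩ rfl rfl <;> rintro ⟨h1, x, h2, h3⟩ <;>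
      exact ⟨h1.symm, x, hsees _ _ _ h2, by rw [add_comm]; exact h3⟩
  have hg : ∀ i j x, i ≠ j → Sees colour i j x → g i j = y i x + y j x := by
    intro i j x hij hx
    rcases z2_cases (y i x + y j x) with h | h
    · rw [h]
      simp only [g]
      rw [if_neg]
      rintro ⟨-, x', hx', h'⟩
      have := congrArg (fun d : Ch LV => d ∅) (door colour hη hη1 hsep hc hij hx hx')
      simp only [Finsupp.add_apply] at this
      have e : y i x + y j x = y i x' + y j x' := this
      rw [h, h'] at e
      exact zero_ne_one e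
    · rw [h]
      simp only [g]
      rw [if_pos ⟨hij, x, hx, h⟩]
  obtain ⟨δ, hδ, hclose⟩ := exists_nrm_close hη
  refine not_ind_four hd hs (exists_indChain' 4 flip_invol hδ
    (fun a => (colour (nrm a), y (colour (nrm a)) (nrm a))) ?_ _ ?_)
  · intro a ha
    have hu := ip_nrm (ip_pos_of_sum_abs ha)
    simp only [flip, nrm_neg, heven]
    congr 1
    have h1 : yv colour Z (colour (nrm a)) (sig (-nrm a)) =
        yv colour Z (colour (nrm a)) (sig (nrm a) + 1) := by
      refine yv_congr colour Z _ fun v hv => ?_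
      rw [Pi.add_apply, Pi.one_apply, sig, sig, ip_neg_right, ng_neg]
      intro h0
      have := hsep _ _ (top_unit v.1) hu hv
      rw [h0, abs_zero] at this
      linarith
    simp only [y]
    rw [h1, yv_add, yv_one colour hη hη1 hsep hc, Finsupp.add_apply]
    simp
  · intro a b ha hb hab
    have hua := ip_nrm (ip_pos_of_sum_abs ha)
    have hub := ip_nrm (ip_pos_of_sum_abs hb)
    refine ⟨?_, Finset.mem_univ _, Finset.mem_univ _⟩
    have h1 : y (colour (nrm b)) (nrm b) = y (colour (nrm b)) (nrm a) := by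
      simp only [y]
      rw [yv_congr colour Z _ (σ := sig (nrm b)) (σ' := sig (nrm a))]
      intro v hv
      exact (ng_eq_of_close (hsep _ _ (top_unit v.1) hub hv)
        (hclose a b ha hb hab _ (top_unit v.1))).symm
    simp only [inc]
    rw [h1]
    by_cases hij : colour (nrm a) = colour (nrm b)
    · rw [hij, hd]
      linear_combination y (colour (nrm b)) (nrm a) * z2_one_add_one
    · rw [hg _ _ (nrm a) hij]
      · linear_combination (y (colour (nrm a)) (nrm a) + y (colour (nrm b)) (nrm a)) *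
          z2_one_add_one
      · intro u hu hcu h0
        rcases hcu with hcu | hcu
        · have := hsep _ _ hu hua hcu
          rw [h0, abs_zero] at this
          linarith
        · have e1 := hsep _ _ hu hub hcu
          have e2 := hclose a b ha hb hab u hu
          rw [h0, zero_sub, abs_neg] at e2
          linarith

end Main

end Crest.Agent.R50
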